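import Vale.Agent.P067.Defs
import Vale.Agent.P067.KO.Final

/-!
Bounded degree coboundary expanders over the field with two elements in every dimension.
-/

namespace Vale.Agent.Results.P067.BoundedDegreeExpanders

open Vale.Agent.P067

theorem result : ∀ d : ℕ, 1 ≤ d → ∃ D : ℕ, ∃ ε : ℝ, 0 < ε ∧ ∀ n₀ : ℕ, ∃ N : ℕ, n₀ ≤ N ∧
    ∃ F : Finset (Finset (Fin N)), IsPure d F ∧ DegreeLE D F ∧ IsCobExpander d F ε ∧
      ∀ u v, Relation.ReflTransGen (fun a b => ∃ τ ∈ F, a ∈ τ ∧ b ∈ τ) u v :=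
  KO.mainStmt

end Vale.Agent.Results.P067.BoundedDegreeExpanders
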