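import Vale.Agent.P067.Top

/-!
P067: bounded degree coboundary expanders have linearly large top cohomology.
-/

open Vale.Agent.P067 in
theorem Vale.Agent.Results.P067.TopBettiLinear.result :
    ∀ (d D : ℕ), 0 < d → ∀ ε : ℝ, 0 < ε → ∃ c : ℝ, 0 < c ∧
      ∀ (n : ℕ) (F : Finset (Finset (Fin n))), IsPure d F → DegreeLE D F →
        IsCobExpander d F ε → c * n - 1 ≤ (topBetti d F : ℝ) :=
  Vale.Agent.P067.top_betti_linear
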